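import Vale.Agent.P287Z.O.L.Defs
import Mathlib.Algebra.Homology.Homotopy
import Mathlib.Algebra.Homology.Embedding.CochainComplex

/-!
# Bi-infinite construction of null-homotopies (P287 port of P294-L, block B3)
-/

open CategoryTheory Limits

namespace Vale.Agent.P287Z.O.H319

universe v u

variable {C : Type u} [Category.{v} C] [Preadditive C]

section

variable (K L : CochainComplex C ℤ)

/-- change one entry of a family of morphisms -/
noncomputable def upd (h : ∀ i j : ℤ, K.X i ⟶ L.X j) (a b : ℤ) (g : K.X a ⟶ L.X b) :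
    ∀ i j : ℤ, K.X i ⟶ L.X j :=
  Function.update h a (Function.update (h a) b g)

lemma upd_same (h : ∀ i j : ℤ, K.X i ⟶ L.X j) (a b : ℤ) (g : K.X a ⟶ L.X b) :
    upd K L h a b g a b = g := by
  simp [upd]

lemma upd_ne (h : ∀ i j : ℤ, K.X i ⟶ L.X j) (a b : ℤ) (g : K.X a ⟶ L.X b) (i j : ℤ)
    (hj : j ≠ b) : upd K L h a b g i j = h i j := by
  unfold upd
  by_cases hi : i = a
  · subst hi
    rw [Function.update_self, Function.update_of_ne hj]
  · rw [Function.update_of_ne hi]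

end

/-- Null-homotopies are constructed upwards and downwards from a position `c` where the map is
zero. -/
theorem exists_homotopy_zero {K L : CochainComplex C ℤ} (φ : K ⟶ L) (c : ℤ) (h0 : φ.f c = 0)
    (up : ∀ i j k : ℤ, i + 1 = j → j + 1 = k → c < j → ∀ g : K.X j ⟶ L.X j, K.d i j ≫ g = 0 →
      ∃ g' : K.X k ⟶ L.X j, K.d j k ≫ g' = g)
    (down : ∀ i j k : ℤ, i + 1 = j → j + 1 = k → j < c → ∀ g : K.X j ⟶ L.X j, g ≫ L.d j k = 0 →
      ∃ g' : K.X j ⟶ L.X i, g' ≫ L.d i j = g) :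
    Nonempty (Homotopy φ 0) := by
  classical
  let G : ℤ → (∀ i j : ℤ, K.X i ⟶ L.X j) → Prop := fun j h =>
    φ.f j = K.d j (j + 1) ≫ h (j + 1) j + h j (j - 1) ≫ L.d (j - 1) j
  let U : ℕ → (∀ i j : ℤ, K.X i ⟶ L.X j) → Prop := fun n h =>
    ∀ j, c - n ≤ j → j ≤ c + n → G j h
  have step : ∀ (n : ℕ) (h : ∀ i j : ℤ, K.X i ⟶ L.X j), U n h → ∃ h' : ∀ i j : ℤ, K.X i ⟶ L.X j,
      U (n + 1) h' ∧ ∀ i j, c - n - 1 ≤ j → j ≤ c + n → h' i j = h i j := by
    intro n h hU
    -- upwards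
    obtain ⟨j0, hj0⟩ : ∃ j0 : ℤ, j0 = c + n + 1 := ⟨_, rfl⟩
    obtain ⟨g1, hg1⟩ := up (j0 - 1) j0 (j0 + 1) (by ring) rfl (by omega)
      (φ.f j0 - h j0 (j0 - 1) ≫ L.d (j0 - 1) j0) (by
        have h1 := hU (j0 - 1) (by omega) (by omega)
        change φ.f (j0 - 1) = K.d (j0 - 1) (j0 - 1 + 1) ≫ h (j0 - 1 + 1) (j0 - 1) +
          h (j0 - 1) (j0 - 1 - 1) ≫ L.d (j0 - 1 - 1) (j0 - 1) at h1
        rw [sub_add_cancel] at h1
        rw [Preadditive.comp_sub, ← φ.comm, h1, Preadditive.add_comp, Category.assoc,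
          Category.assoc, L.d_comp_d, comp_zero, add_zero, sub_self])
    -- downwards
    obtain ⟨j1, hj1⟩ : ∃ j1 : ℤ, j1 = c - n - 1 := ⟨_, rfl⟩
    obtain ⟨g2, hg2⟩ := down (j1 - 1) j1 (j1 + 1) (by ring) rfl (by omega)
      (φ.f j1 - K.d j1 (j1 + 1) ≫ h (j1 + 1) j1) (by
        have h1 := hU (j1 + 1) (by omega) (by omega)
        change φ.f (j1 + 1) = K.d (j1 + 1) (j1 + 1 + 1) ≫ h (j1 + 1 + 1) (j1 + 1) +
          h (j1 + 1) (j1 + 1 - 1) ≫ L.d (j1 + 1 - 1) (j1 + 1) at h1
        rw [add_sub_cancel_right] at h1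
        rw [Preadditive.sub_comp, φ.comm, h1, Preadditive.comp_add, ← Category.assoc,
          ← Category.assoc, K.d_comp_d, zero_comp, zero_add, sub_self])
    refine ⟨upd K L (upd K L h (j0 + 1) j0 g1) j1 (j1 - 1) g2, ?_, ?_⟩
    · intro j hj hj'
      change φ.f j = _
      rcases eq_or_ne j j0 with rfl | hne0
      · rw [upd_ne _ _ _ _ _ _ _ _ (by omega), upd_same, upd_ne _ _ _ _ _ _ _ _ (by omega),
          upd_ne _ _ _ _ _ _ _ _ (by omega), hg1]
        abel
      · rcases eq_or_ne j j1 with rfl | hne1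
        · rw [upd_ne _ _ _ _ _ _ _ _ (by omega), upd_ne _ _ _ _ _ _ _ _ (by omega), upd_same, hg2]
          abel
        · rw [upd_ne _ _ _ _ _ _ _ _ (by omega), upd_ne _ _ _ _ _ _ _ _ (by omega),
            upd_ne _ _ _ _ _ _ _ _ (by omega), upd_ne _ _ _ _ _ _ _ _ (by omega)]
          exact hU j (by push_cast at hj; omega) (by push_cast at hj'; omega)
    · intro i j hj hj'
      rw [upd_ne _ _ _ _ _ _ _ _ (by omega), upd_ne _ _ _ _ _ _ _ _ (by omega)]
  -- the sequence
  have base : U 0 (fun _ _ => 0) := by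
    intro j hj hj'
    obtain rfl : j = c := by simp at hj hj'; omega
    change φ.f j = K.d j (j + 1) ≫ 0 + 0 ≫ L.d (j - 1) j
    rw [comp_zero, zero_comp, add_zero, h0]
  choose! nx hnx1 hnx2 using step
  let H : ℕ → (∀ i j : ℤ, K.X i ⟶ L.X j) := fun n => Nat.rec (fun _ _ => 0) (fun n h => nx n h) n
  have hH : ∀ n, U n (H n) := by
    intro n
    induction n with
    | zero => exact base
    | succ n ih => exact hnx1 n (H n) ih
  have hag : ∀ (n : ℕ) (i j : ℤ), c - n - 1 ≤ j → j ≤ c + n → H (n + 1) i j = H n i j := fun n i j hj hj' =>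
    hnx2 n (H n) (hH n) i j hj hj'
  have hag' : ∀ (n m : ℕ) (i j : ℤ), c - n - 1 ≤ j → j ≤ c + n → H (n + m) i j = H n i j := by
    intro n m i j hj hj'
    induction m with
    | zero => rfl
    | succ m ih =>
      rw [← ih, ← add_assoc]
      exact hag (n + m) i j (by push_cast; omega) (by push_cast; omega)
  let h : ∀ i j : ℤ, K.X i ⟶ L.X j := fun i j => H (j - c).natAbs i j
  have hh : ∀ (n : ℕ) (i j : ℤ), c - n - 1 ≤ j → j ≤ c + n → h i j = H n i j := by
    intro n i j hj hj'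
    change H (j - c).natAbs i j = _
    rcases le_total n (j - c).natAbs with hle | hle
    · obtain ⟨m, hm⟩ := Nat.exists_eq_add_of_le hle
      rw [hm]
      exact hag' n m i j hj hj'
    · obtain ⟨m, hm⟩ := Nat.exists_eq_add_of_le hle
      conv_rhs => rw [hm]
      exact (hag' _ m i j (by omega) (by omega)).symm
  have hG : ∀ j, G j h := by
    intro j
    have h1 := hH (j - c).natAbs j (by omega) (by omega)
    change φ.f j = K.d j (j + 1) ≫ h (j + 1) j + h j (j - 1) ≫ L.d (j - 1) j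
    rw [hh (j - c).natAbs (j + 1) j (by omega) (by omega),
      hh (j - c).natAbs j (j - 1) (by omega) (by omega)]
    exact h1
  refine ⟨{ hom := fun i j => if j + 1 = i then h i j else 0
            zero := fun i j hij => if_neg hij
            comm := fun i => ?_ }⟩
  rw [dNext_eq _ (show (ComplexShape.up ℤ).Rel i (i + 1) from rfl),
    prevD_eq _ (show (ComplexShape.up ℤ).Rel (i - 1) i from sub_add_cancel i 1), if_pos rfl,
    if_pos (sub_add_cancel i 1), HomologicalComplex.zero_f, add_zero]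
  exact hG i

/-- a null-homotopy from a family of maps -/
theorem homotopy_of {K L : CochainComplex C ℤ} (ψ : K ⟶ L)
    (e : ∀ n m : ℤ, n + 1 = m → (K.X m ⟶ L.X n))
    (he : ∀ (n m r : ℤ) (h : n + 1 = m) (h' : m + 1 = r),
      ψ.f m = K.d m r ≫ e m r h' + e n m h ≫ L.d n m) : Nonempty (Homotopy ψ 0) := by
  refine ⟨{ hom := fun i j => if h : j + 1 = i then e j i h else 0
            zero := fun i j hij => dif_neg hij
            comm := fun i => ?_ }⟩
  have h1 : (i - 1) + 1 = i := by ring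
  rw [dNext_eq _ (show (ComplexShape.up ℤ).Rel i (i + 1) from rfl),
    prevD_eq _ (show (ComplexShape.up ℤ).Rel (i - 1) i from h1), dif_pos rfl, dif_pos h1,
    HomologicalComplex.zero_f, add_zero, he (i - 1) i (i + 1) h1 rfl]

end Vale.Agent.P287Z.O.H319
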