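import Vale.Agent.P287Z.O.H319.MF

/-!
# Eisenbud's lifting: `Hom_K(T(E), T(F)) = Cl/Nh` (P287 port of P294-L, block B3)
-/

open CategoryTheory Limits MvPolynomial

namespace Vale.Agent.P287Z.O.H319

open V L

variable {W : MvPolynomial (Fin 6) ℂ} {m n : ℕ}

section mat

variable (hW : Hg 6 W) (h0 : W ≠ 0) (E : GMF W m) (F : GMF W n)

include hW in
/-- homogeneous quotients on the columns of parity `s` -/
theorem exists_quot {a : ℤ} {M : Matrix (Fin n) (Fin m) (MvPolynomial (Fin 6) ℂ)}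
    (hM : ∀ i j, Hg (a + E.p j - F.p i) (M i j)) (s : ℤ)
    (h : ∀ i j, Even (E.p j - s) → W ∣ M i j) :
    ∃ u : Matrix (Fin n) (Fin m) (MvPolynomial (Fin 6) ℂ),
      (∀ i j, Hg (a - 6 + E.p j - F.p i) (u i j)) ∧ M * pr E.p s = W • (u * pr E.p s) := by
  have h3 : ∀ i j, ∃ u, Hg (a - 6 + E.p j - F.p i) u ∧
      (Even (E.p j - s) → M i j = W * u) := by
    intro i j
    by_cases hb : Even (E.p j - s)
    · obtain ⟨v, hv⟩ := h i j hb
      obtain ⟨u, hu, hu'⟩ := exists_hg_of_eq_mul hW (hM i j) hv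
      refine ⟨u, ?_, fun _ => hu'⟩
      convert hu using 1
      ring
    · exact ⟨0, hga_zero _, fun h => absurd h hb⟩
  choose U hU hU' using h3
  refine ⟨Matrix.of U, hU, ?_⟩
  ext1 i j
  rw [Matrix.smul_apply, mul_pr, mul_pr]
  split_ifs with hj
  · exact hU' i j hj
  · rw [smul_zero]

theorem hg_pr {a : ℤ} {M : Matrix (Fin n) (Fin m) (MvPolynomial (Fin 6) ℂ)}
    (hM : ∀ i j, Hg (a + E.p j - F.p i) (M i j)) (s : ℤ) :
    ∀ i j, Hg (a + E.p j - F.p i) ((M * pr E.p s) i j) := fun i j => by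
  rw [mul_pr]
  split_ifs
  · exact hM i j
  · exact hga_zero _

include hW h0 in
/-- Eisenbud's lifting on the level of matrices -/
theorem eis_lift (f₀ f₁ : Matrix (Fin n) (Fin m) (MvPolynomial (Fin 6) ℂ))
    (hf₀ : ∀ i j, Hg (0 + E.p j - F.p i) (f₀ i j)) (hf₁ : ∀ i j, Hg (0 + E.p j - F.p i) (f₁ i j))
    (h : ∀ i j, Even (E.p j) → W ∣ (F.d * f₀ - f₁ * E.d) i j) :
    ∃ f, Cl E F f ∧ f * pr E.p 0 = f₀ * pr E.p 0 := by
  obtain ⟨u, hu, hu'⟩ := exists_quot hW E F (a := 3) (M := F.d * f₀ - f₁ * E.d) (fun i j => by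
    rw [Matrix.sub_apply]
    exact hga_sub (hg_matmul F.deg hf₀ (by norm_num) i j) (hg_matmul hf₁ E.deg (by norm_num) i j))
    0 (fun i j hj => h i j (by simpa using hj))
  -- the corrected odd part
  obtain ⟨g, hg⟩ : ∃ g, g = f₁ + u * E.d := ⟨_, rfl⟩
  have hgd : ∀ i j, Hg (0 + E.p j - F.p i) (g i j) := fun i j => by
    rw [hg, Matrix.add_apply]
    exact hga_add (hf₁ i j) (hg_matmul hu E.deg (by norm_num) i j)
  have e1 : F.d * f₀ * pr E.p 0 = g * E.d * pr E.p 0 := by
    rw [Matrix.sub_mul] at hu'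
    rw [hg, Matrix.add_mul, Matrix.add_mul, Matrix.mul_assoc u, E.sq, Matrix.mul_smul,
      Matrix.mul_one, Matrix.smul_mul, ← hu']
    abel
  have e2 : F.d * g * pr E.p 1 = f₀ * E.d * pr E.p 1 := by
    apply smul_cancel h0
    have e3 : W • (f₀ * E.d * pr E.p 1) = F.d * (F.d * f₀ * pr E.p 0) * E.d := by
      have : E.d * pr E.p 1 = pr E.p 0 * E.d := d_pr' E 0
      rw [Matrix.mul_assoc f₀, this, ← Matrix.mul_assoc, ← Matrix.mul_assoc, ← Matrix.mul_assoc,
        F.sq, Matrix.smul_mul, Matrix.one_mul, Matrix.smul_mul, Matrix.smul_mul]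
    have e4 : E.d * pr E.p 0 = pr E.p 1 * E.d := d_pr E 0
    rw [e3, e1, Matrix.mul_assoc g, e4, ← Matrix.mul_assoc g, ← Matrix.mul_assoc F.d,
      Matrix.mul_assoc _ E.d E.d, E.sq, Matrix.mul_smul, Matrix.mul_one, ← Matrix.mul_assoc F.d]
  refine ⟨f₀ * pr E.p 0 + g * pr E.p 1, ⟨fun i j => ?_, ?_⟩, ?_⟩
  · rw [Matrix.add_apply]
    have h1 := hga_add (hg_pr E F hf₀ 0 i j) (hg_pr E F hgd 1 i j)
    rwa [zero_add] at h1
  · have e4 : pr E.p 1 * E.d = E.d * pr E.p 0 := (d_pr E 0).symm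
    have e5 : pr E.p 0 * E.d = E.d * pr E.p 1 := (d_pr' E 0).symm
    rw [Matrix.mul_add, Matrix.add_mul, ← Matrix.mul_assoc, ← Matrix.mul_assoc, e1, e2,
      Matrix.mul_assoc f₀ (pr E.p 0) E.d, e5, Matrix.mul_assoc g (pr E.p 1) E.d, e4,
      ← Matrix.mul_assoc, ← Matrix.mul_assoc, add_comm]
  · have e6 : pr E.p 0 * pr E.p 0 = pr E.p 0 := by
      ext1 i j
      rw [mul_pr]
      by_cases hj : Even (E.p j - 0)
      · rw [if_pos hj]
      · rw [if_neg hj]
        unfold pr
        by_cases hij : i = j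
        · subst hij
          rw [Matrix.diagonal_apply_eq, if_neg hj]
        · rw [Matrix.diagonal_apply_ne _ hij]
    have e7 : pr E.p 1 * pr E.p 0 = 0 := by
      ext1 i j
      rw [mul_pr]
      by_cases hj : Even (E.p j - 0)
      · rw [if_pos hj]
        unfold pr
        by_cases hij : i = j
        · subst hij
          rw [Matrix.diagonal_apply_eq, if_neg]
          · rfl
          · intro h'
            rw [Int.even_iff] at hj h'
            omega
        · rw [Matrix.diagonal_apply_ne _ hij]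
          rfl
      · rw [if_neg hj]
        rfl
    rw [Matrix.add_mul, Matrix.mul_assoc, Matrix.mul_assoc, e6, e7, Matrix.mul_zero, add_zero]

include hW h0 in
/-- Eisenbud's lifting of null-homotopies -/
theorem eis_null {f : Matrix (Fin n) (Fin m) (MvPolynomial (Fin 6) ℂ)} (hf : Cl E F f)
    (h₀ h₁ : Matrix (Fin n) (Fin m) (MvPolynomial (Fin 6) ℂ))
    (hh₀ : ∀ i j, Hg (-3 + E.p j - F.p i) (h₀ i j)) (hh₁ : ∀ i j, Hg (-3 + E.p j - F.p i) (h₁ i j))
    (h : ∀ i j, Even (E.p j) → W ∣ (f - (F.d * h₀ + h₁ * E.d)) i j) : Nh E F f := by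
  obtain ⟨u, hu, hu'⟩ := exists_quot hW E F (a := 0) (M := f - (F.d * h₀ + h₁ * E.d))
    (fun i j => by
      rw [Matrix.sub_apply, Matrix.add_apply]
      refine hga_sub (by rw [zero_add]; exact hf.1 i j) (hga_add
        (hg_matmul F.deg hh₀ (by norm_num) i j) (hg_matmul hh₁ E.deg (by norm_num) i j)))
    0 (fun i j hj => h i j (by simpa using hj))
  obtain ⟨g, hg⟩ : ∃ g, g = h₀ + F.d * u := ⟨_, rfl⟩
  have hgd : ∀ i j, Hg (-3 + E.p j - F.p i) (g i j) := fun i j => by
    rw [hg, Matrix.add_apply]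
    exact hga_add (hh₀ i j) (hg_matmul F.deg hu (by norm_num) i j)
  have e1 : f * pr E.p 0 = (F.d * g + h₁ * E.d) * pr E.p 0 := by
    rw [Matrix.sub_mul, sub_eq_iff_eq_add] at hu'
    rw [hu', hg, Matrix.mul_add, ← Matrix.mul_assoc F.d F.d, F.sq, Matrix.smul_mul,
      Matrix.one_mul, Matrix.add_mul, Matrix.add_mul, Matrix.add_mul, Matrix.smul_mul]
    abel
  have e4 : E.d * pr E.p 0 = pr E.p 1 * E.d := d_pr E 0
  have e5 : E.d * pr E.p 1 = pr E.p 0 * E.d := d_pr' E 0
  have e2 : f * pr E.p 1 = (F.d * h₁ + g * E.d) * pr E.p 1 := by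
    apply smul_cancel h0
    have e6 : f * pr E.p 1 * E.d = (F.d * h₁ + g * E.d) * pr E.p 1 * E.d := by
      have e8 : F.d * (F.d * g + h₁ * E.d) = (F.d * h₁ + g * E.d) * E.d := by
        rw [Matrix.mul_add, Matrix.add_mul, ← Matrix.mul_assoc, F.sq, Matrix.mul_assoc g, E.sq,
          Matrix.mul_smul, Matrix.smul_mul, Matrix.one_mul, Matrix.mul_one, Matrix.mul_assoc,
          add_comm]
      rw [Matrix.mul_assoc, ← e4, ← Matrix.mul_assoc, ← hf.2, Matrix.mul_assoc, e1,
        Matrix.mul_assoc _ (pr E.p 1), ← e4, ← Matrix.mul_assoc, e8, ← Matrix.mul_assoc]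
    have e7 : f * pr E.p 1 * E.d * E.d = (F.d * h₁ + g * E.d) * pr E.p 1 * E.d * E.d := by rw [e6]
    rwa [Matrix.mul_assoc _ E.d, Matrix.mul_assoc _ E.d, E.sq, Matrix.mul_smul, Matrix.mul_one,
      Matrix.mul_smul, Matrix.mul_one] at e7
  refine ⟨g * pr E.p 0 + h₁ * pr E.p 1, fun i j => ?_, ?_⟩
  · rw [Matrix.add_apply]
    have h1 := hga_add (hg_pr E F hgd 0 i j) (hg_pr E F hh₁ 1 i j)
    rwa [show -3 + E.p j - F.p i = E.p j - F.p i - 3 by ring] at h1
  · have h1 : f = f * pr E.p 0 + f * pr E.p 1 := by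
      rw [← Matrix.mul_add, show pr E.p 0 + pr E.p 1 = 1 from pr_add E.p 0, Matrix.mul_one]
    rw [h1, e1, e2, Matrix.mul_add, Matrix.add_mul _ _ E.d, Matrix.mul_assoc g (pr E.p 0),
      ← e5, Matrix.mul_assoc h₁ (pr E.p 1), ← e4, Matrix.add_mul, Matrix.add_mul]
    simp only [Matrix.mul_assoc]
    abel

end mat

variable [FrOK W]

/-- **B3** -/
theorem eisSt (hW : Hg 6 W) (h0 : W ≠ 0) : EisSt W := by
  intro m n E F
  constructor
  · intro φ
    obtain ⟨f₀, hf₀, e₀⟩ := (matSt W (qsel E (fun _ => True) 0)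
      (qsel F (fun _ => True) 0)).1 (φ.f 0)
    obtain ⟨f₁, hf₁, e₁⟩ := (matSt W (qsel E (fun _ => True) 1)
      (qsel F (fun _ => True) 1)).1 (φ.f 1)
    have hf₀' : ∀ i j, Hg (0 + E.p j - F.p i) (f₀ i j) := fun i j => by
      have := hf₀ i j
      rw [qsel_true, qsel_true] at this
      convert this using 1
      ring
    have hf₁' : ∀ i j, Hg (0 + E.p j - F.p i) (f₁ i j) := fun i j => by
      have := hf₁ i j
      rw [qsel_true, qsel_true] at this
      convert this using 1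
      ring
    have h1 : matA W (F.d * f₀) (hf₀.mul (hgd F (zero_add 1))) =
        matA W (f₁ * E.d) ((hgd E (zero_add 1)).mul hf₁) := by
      have h2 := φ.comm 0 1
      rw [TT_d F (zero_add 1) (hgd F (zero_add 1)), TT_d E (zero_add 1) (hgd E (zero_add 1)),
        ← e₀, ← e₁] at h2
      exact (matA_comp W f₀ hf₀ F.d (hgd F (zero_add 1))).symm.trans (h2.trans
        (matA_comp W E.d (hgd E (zero_add 1)) f₁ hf₁))
    have h3 := ((matSt W _ _).2 _ _ _ _).1 h1
    obtain ⟨f, hf, hff⟩ := eis_lift hW h0 E F f₀ f₁ hf₀' hf₁' (fun i j hj => by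
      rw [Matrix.sub_apply]
      exact h3 i j (by rw [qsel_true]; simpa using hj))
    refine ⟨f, hf, ⟨Homotopy.equivSubZero.symm ?_⟩⟩
    refine (exists_homotopy_zero (φ - Tf hf _) 0 ?_ (fun i j k hij hjk _ g hg =>
      ext_up hW h0 E _ i j k hij hjk g hg) (fun i j k hij hjk _ g hg =>
      lift_down hW h0 F _ i j k hij hjk g hg)).some
    rw [HomologicalComplex.sub_f_apply, sub_eq_zero]
    have hf' : HgM (qsel E (fun _ => True) 0) (qsel F (fun _ => True) 0) f := fun i j => by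
      rw [qsel_true, qsel_true]
      have := hf.1 i j
      convert this using 1
      ring
    rw [Tf_f hf 0 hf']
    refine e₀.symm.trans (((matSt W _ _).2 _ _ _ _).2 fun i j hj => ?_)
    have h4 := congrFun (congrFun hff i) j
    rw [mul_pr, mul_pr] at h4
    rw [qsel_true] at hj
    have hj' : Even (E.p j - 0) := by simpa using hj
    rw [if_pos hj', if_pos hj'] at h4
    rw [h4, sub_self]
    exact dvd_zero _
  · intro f hf
    have hf' : ∀ k, HgM (qsel E (fun _ => True) k) (qsel F (fun _ => True) k) f := fun k i j => by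
      rw [qsel_true, qsel_true]
      have := hf.1 i j
      convert this using 1
      ring
    constructor
    · rintro ⟨H⟩
      obtain ⟨h₀, hh₀, e₀⟩ := (matSt W (qsel E (fun _ => True) 0)
        (qsel F (fun _ => True) (-1))).1 (H.hom 0 (-1))
      obtain ⟨h₁, hh₁, e₁⟩ := (matSt W (qsel E (fun _ => True) 1)
        (qsel F (fun _ => True) 0)).1 (H.hom 1 0)
      have hh₀' : ∀ i j, Hg (-3 + E.p j - F.p i) (h₀ i j) := fun i j => by
        have := hh₀ i j
        rw [qsel_true, qsel_true] at this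
        convert this using 1
        ring
      have hh₁' : ∀ i j, Hg (-3 + E.p j - F.p i) (h₁ i j) := fun i j => by
        have := hh₁ i j
        rw [qsel_true, qsel_true] at this
        convert this using 1
        ring
      have h1 := H.comm 0
      rw [dNext_eq _ (show (ComplexShape.up ℤ).Rel 0 1 from rfl),
        prevD_eq _ (show (ComplexShape.up ℤ).Rel (-1) 0 from rfl), HomologicalComplex.zero_f,
        add_zero, Tf_f hf 0 (hf' 0), TT_d E (zero_add 1) (hgd E (zero_add 1)),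
        TT_d F (neg_add_cancel 1) (hgd F (neg_add_cancel 1))] at h1
      have h2 : matA W f (hf' 0) = matA W (F.d * h₀ + h₁ * E.d)
          ((hh₀.mul (hgd F (neg_add_cancel 1))).add ((hgd E (zero_add 1)).mul hh₁)) := by
        rw [matA_add W (hh₀.mul (hgd F (neg_add_cancel 1))) ((hgd E (zero_add 1)).mul hh₁),
          ← matA_comp W h₀ hh₀ F.d (hgd F (neg_add_cancel 1)),
          ← matA_comp W E.d (hgd E (zero_add 1)) h₁ hh₁, e₀, e₁, add_comm]
        exact h1
      have h3 := ((matSt W _ _).2 _ _ _ _).1 h2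
      exact eis_null hW h0 E F hf h₀ h₁ hh₀' hh₁' fun i j hj => by
        rw [Matrix.sub_apply]
        exact h3 i j (by rw [qsel_true]; simpa using hj)
    · rintro ⟨h, hh, rfl⟩
      have hh' : ∀ i j : ℤ, j + 1 = i → HgM (qsel E (fun _ => True) i)
          (qsel F (fun _ => True) j) h := fun i j hij a b => by
        rw [qsel_true, qsel_true]
        have := hh a b
        convert this using 1
        rw [← hij]
        ring
      refine homotopy_of _ (fun j i hij => matA W h (hh' i j hij)) fun a b c hab hbc => ?_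
      rw [Tf_f hf b (hf' b), TT_d E hbc (hgd E hbc), TT_d F hab (hgd F hab)]
      have h2 : matA W (F.d * h + h * E.d) (hf' b) =
          matA W (F.d * h) ((hh' b a hab).mul (hgd F hab)) +
            matA W (h * E.d) ((hgd E hbc).mul (hh' c b hbc)) :=
        matA_add W _ _ _
      rw [← matA_comp W h (hh' b a hab) F.d (hgd F hab),
        ← matA_comp W E.d (hgd E hbc) h (hh' c b hbc)] at h2
      exact h2.trans (add_comm _ _)

end Vale.Agent.P287Z.O.H319
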