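import Vale.Agent.P287Z.O.L.B1b

/-!
# P287 port of P294-L: the morphisms inverted in `Coh X` are the maps which are bijective in large degrees
-/

open CategoryTheory Limits MvPolynomial

namespace Vale.Agent.P287Z.O.H319

open L

variable (W : MvPolynomial (Fin 6) ℂ)

/-- maps of graded modules which are bijective in all large degrees -/
def evIso : MorphismProperty (GA W) := fun _ _ f =>
  ∃ n : ℤ, ∀ a ≥ n, Function.Bijective (f.hom.app ⟨a⟩)

lemma mono_iff {M N : GA W} (f : M ⟶ N) : (tors W).monoModSerre f ↔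
    ∃ n : ℤ, ∀ a ≥ n, Function.Injective (f.hom.app ⟨a⟩) := by
  have hex : (ShortComplex.mk (kernel.ι f) f (kernel.condition f)).Exact :=
    ShortComplex.exact_kernel f
  constructor
  · rintro ⟨n, hn⟩
    refine ⟨n, fun a ha => ?_⟩
    rw [injective_iff_map_eq_zero]
    intro v hv
    obtain ⟨u, hu⟩ := GA_exact_apply W hex a v hv
    have := hn a ha
    rw [← hu, Subsingleton.elim u 0]
    exact map_zero _
  · rintro ⟨n, hn⟩
    refine ⟨n, fun a ha => ⟨fun u v => ?_⟩⟩
    refine GA_app_injective W (kernel.ι f) a (hn a ha ?_)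
    have h : ∀ w : (kernel f).obj.obj ⟨a⟩, f.hom.app ⟨a⟩ ((kernel.ι f).hom.app ⟨a⟩ w) = 0 :=
      fun w => congr_arg (fun k : kernel f ⟶ N => k.hom.app ⟨a⟩ w) (kernel.condition f)
    exact (h u).trans (h v).symm

lemma epi_iff {M N : GA W} (f : M ⟶ N) : (tors W).epiModSerre f ↔
    ∃ n : ℤ, ∀ a ≥ n, Function.Surjective (f.hom.app ⟨a⟩) := by
  have hex : (ShortComplex.mk f (cokernel.π f) (cokernel.condition f)).Exact :=
    ShortComplex.exact_cokernel f
  constructor
  · rintro ⟨n, hn⟩
    refine ⟨n, fun a ha v => ?_⟩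
    have := hn a ha
    exact GA_exact_apply W hex a v (Subsingleton.elim _ _)
  · rintro ⟨n, hn⟩
    refine ⟨n, fun a ha => ⟨fun u v => ?_⟩⟩
    have h : ∀ w : (cokernel f).obj.obj ⟨a⟩, w = 0 := by
      intro w
      obtain ⟨x, rfl⟩ := GA_app_surjective W (cokernel.π f) a w
      obtain ⟨y, rfl⟩ := hn a ha x
      exact congr_arg (fun k : M ⟶ cokernel f => k.hom.app ⟨a⟩ y) (cokernel.condition f)
    rw [h u, h v]

theorem isoModSerre_eq : (tors W).isoModSerre = evIso W := by
  ext M N f
  constructor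
  · rintro ⟨h1, h2⟩
    obtain ⟨n, hn⟩ := (mono_iff W f).1 h1
    obtain ⟨m, hm⟩ := (epi_iff W f).1 h2
    exact ⟨max n m, fun a ha => ⟨hn a (le_trans (le_max_left _ _) ha),
      hm a (le_trans (le_max_right _ _) ha)⟩⟩
  · rintro ⟨n, hn⟩
    exact ⟨(mono_iff W f).2 ⟨n, fun a ha => (hn a ha).1⟩,
      (epi_iff W f).2 ⟨n, fun a ha => (hn a ha).2⟩⟩

/-- `Coh X` is the localization of the category of finitely generated graded `A`-modules at the maps
which are bijective in large degrees (Serre) -/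
instance isLocalization_evIso : (piA W).IsLocalization (evIso W) := by
  rw [← isoModSerre_eq]
  infer_instance

end Vale.Agent.P287Z.O.H319
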