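import Vale.Agent.P287Z.O.L.B2
import Vale.Agent.P287Z.O.H319.Bi

/-!
# Matrix factorizations and the complexes `T(E)` (P287 port of P294-L, block B3)

`NullSt`, `NullSt'`, `EisSt` of `L/Props.lean`, for `W` homogeneous, `W ≠ 0`.
-/

open CategoryTheory Limits MvPolynomial

namespace Vale.Agent.P287Z.O.H319

open V L

variable {W : MvPolynomial (Fin 6) ℂ} {m n : ℕ}

section aux

theorem smul_cancel {ι κ : Type} (h0 : W ≠ 0) {f g : Matrix κ ι (MvPolynomial (Fin 6) ℂ)}
    (h : W • f = W • g) : f = g := by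
  ext1 i j
  have h1 := congrFun (congrFun h i) j
  rw [Matrix.smul_apply, Matrix.smul_apply, smul_eq_mul, smul_eq_mul] at h1
  exact mul_left_cancel₀ h0 h1

/-- product of homogeneous matrices -/
theorem hg_matmul {ι κ μ : Type} [Fintype κ] {f : Matrix μ κ (MvPolynomial (Fin 6) ℂ)}
    {g : Matrix κ ι (MvPolynomial (Fin 6) ℂ)} {a b : ℤ} {p : μ → ℤ} {q : κ → ℤ} {r : ι → ℤ}
    (hf : ∀ i j, Hg (a + q j - p i) (f i j)) (hg : ∀ i j, Hg (b + r j - q i) (g i j)) {c : ℤ}
    (hc : a + b = c) : ∀ i j, Hg (c + r j - p i) ((f * g) i j) := fun i j => by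
  rw [Matrix.mul_apply]
  exact hg_sum fun k => hg_mul (hf i k) (hg k j) (by rw [← hc]; ring)

/-- the projector on the columns of parity `s` -/
noncomputable def pr (p : Fin m → ℤ) (s : ℤ) : Matrix (Fin m) (Fin m) (MvPolynomial (Fin 6) ℂ) :=
  Matrix.diagonal fun j => if Even (p j - s) then 1 else 0

theorem mul_pr {ι : Type} (f : Matrix ι (Fin m) (MvPolynomial (Fin 6) ℂ)) (p : Fin m → ℤ) (s : ℤ)
    (i : ι) (j : Fin m) : (f * pr p s) i j = if Even (p j - s) then f i j else 0 := by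
  rw [pr, Matrix.mul_diagonal]
  split_ifs <;> simp

theorem pr_add (p : Fin m → ℤ) (s : ℤ) : pr p s + pr p (s + 1) = 1 := by
  rw [pr, pr, Matrix.diagonal_add, ← Matrix.diagonal_one]
  congr 1
  funext j
  by_cases h : Even (p j - s)
  · rw [if_pos h, if_neg, add_zero]
    intro h'
    rw [Int.even_iff] at h h'
    omega
  · rw [if_neg h, if_pos, zero_add]
    rw [Int.even_iff] at h ⊢
    omega

theorem d_pr (E : GMF W m) (s : ℤ) : E.d * pr E.p s = pr E.p (s + 1) * E.d := by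
  ext1 i j
  rw [mul_pr, pr, Matrix.diagonal_mul]
  by_cases h : Even (3 + E.p j - E.p i)
  · by_cases h' : Even (E.p j - s)
    · rw [if_pos h', if_pos, one_mul]
      rw [Int.even_iff] at h h' ⊢
      omega
    · rw [if_neg h', if_neg, zero_mul]
      rw [Int.even_iff] at h h' ⊢
      omega
  · have : E.d i j = 0 := hga_odd_eq_zero (E.deg i j) (by rwa [← even_iff_two_dvd])
    rw [this, ite_self, mul_zero]

theorem d_pr' (E : GMF W m) (s : ℤ) : E.d * pr E.p (s + 1) = pr E.p s * E.d := by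
  rw [d_pr]
  congr 1
  unfold pr
  congr 1
  funext j
  have : Even (E.p j - (s + 1 + 1)) ↔ Even (E.p j - s) := by
    rw [Int.even_iff, Int.even_iff]; omega
  simp only [this]

end aux

section comp

variable [FrOK W] {ι κ : Type} [Fintype ι] [Fintype κ]

theorem TT_d (E : GMF W n) {k l : ℤ} (h : k + 1 = l) (hd : HgM (qsel E (fun _ => True) k)
    (qsel E (fun _ => True) l) E.d) : (TT E).d k l = matA W E.d hd :=
  (T_d E _ k l h).trans (matA_congr W _ _ (mask_true _))

theorem hgd (E : GMF W n) {k l : ℤ} (h : k + 1 = l) : HgM (qsel E (fun _ => True) k)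
    (qsel E (fun _ => True) l) E.d := fun i j => by
  rw [qsel_true, qsel_true]
  have := E.deg i j
  rwa [show 3 + E.p j - E.p i = E.p j - 3 * k - (E.p i - 3 * l) by rw [← h]; ring] at this

theorem Tf_f {E : GMF W m} {F : GMF W n} {f : Matrix (Fin n) (Fin m) (MvPolynomial (Fin 6) ℂ)}
    (hf : Cl E F f) (k : ℤ) (hf' : HgM (qsel E (fun _ => True) k) (qsel F (fun _ => True) k) f) :
    (Tf hf (fun _ => True)).f k = matA W f hf' :=
  matA_congr W _ _ (mask_true _)

/-- `Hom(T(E), FrA q)` is exact -/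
theorem ext_up (hW : Hg 6 W) (h0 : W ≠ 0) (E : GMF W n) (q : κ → ℤ) (i j k : ℤ) (hij : i + 1 = j)
    (hjk : j + 1 = k) (g : (TT E).X j ⟶ FrA W q) (hg : (TT E).d i j ≫ g = 0) :
    ∃ g' : (TT E).X k ⟶ FrA W q, (TT E).d j k ≫ g' = g := by
  obtain ⟨G, hG, rfl⟩ := (matSt W (qsel E (fun _ => True) j) q).1 g
  rw [TT_d E hij (hgd E hij)] at hg
  have h1 : matA W (G * E.d) ((hgd E hij).mul hG) = matA W 0 HgM.zero :=
    (matA_comp W _ _ _ _).symm.trans (hg.trans (matA_eq_zero W 0 HgM.zero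
      fun _ _ => dvd_zero _).symm)
  have h2 := ((matSt W _ _).2 _ _ _ _).1 h1
  have h3 : ∀ a b, ∃ u, Hg (E.p b - 3 * k - q a) u ∧
      (Even (E.p b - 3 * i) → (G * E.d) a b = W * u) := by
    intro a b
    by_cases hb : Even (E.p b - 3 * i)
    · obtain ⟨v, hv⟩ := h2 a b (by rw [qsel_true]; exact hb)
      rw [Matrix.zero_apply, sub_zero] at hv
      obtain ⟨u, hu, hu'⟩ := exists_hg_of_eq_mul hW (((hgd E hij).mul hG) a b) hv
      refine ⟨u, ?_, fun _ => hu'⟩
      rw [qsel_true] at hu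
      convert hu using 1
      rw [← hjk, ← hij]
      ring
    · exact ⟨0, hga_zero _, fun h => absurd h hb⟩
  choose U hU hU' using h3
  have hU1 : HgM (qsel E (fun _ => True) k) q (Matrix.of U) := fun a b => by
    rw [qsel_true]; exact hU a b
  refine ⟨matA W (Matrix.of U) hU1, ?_⟩
  rw [TT_d E hjk (hgd E hjk)]
  refine (matA_comp W _ _ _ _).trans (((matSt W _ _).2 _ _ _ _).2 fun a b hb => ?_)
  rw [qsel_true] at hb
  have h4 : (W • (Matrix.of U * E.d)) a b = (W • G) a b := by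
    have h5 : (W • (Matrix.of U * E.d)) a b = (G * E.d * E.d) a b := by
      rw [Matrix.smul_apply, Matrix.mul_apply, Matrix.mul_apply, smul_eq_mul, Finset.mul_sum]
      refine Finset.sum_congr rfl fun t _ => ?_
      by_cases ht : Even (E.p t - 3 * i)
      · rw [hU' a t ht, Matrix.of_apply, mul_assoc]
      · have : E.d t b = 0 := hga_odd_eq_zero (E.deg t b) (by
          rw [← even_iff_two_dvd]
          rw [Int.even_iff] at ht hb ⊢
          omega)
        rw [this, mul_zero, mul_zero, mul_zero]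
    rw [h5, Matrix.mul_assoc, E.sq, Matrix.mul_smul, Matrix.mul_one]
  rw [Matrix.smul_apply, Matrix.smul_apply, smul_eq_mul, smul_eq_mul] at h4
  rw [mul_left_cancel₀ h0 h4, sub_self]
  exact dvd_zero _

/-- maps from free modules to `T(F)` lift -/
theorem lift_down (hW : Hg 6 W) (h0 : W ≠ 0) (F : GMF W n) (q : ι → ℤ) (i j k : ℤ)
    (hij : i + 1 = j) (hjk : j + 1 = k) (g : FrA W q ⟶ (TT F).X j) (hg : g ≫ (TT F).d j k = 0) :
    ∃ g' : FrA W q ⟶ (TT F).X i, g' ≫ (TT F).d i j = g := by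
  obtain ⟨G, hG, rfl⟩ := (matSt W q (qsel F (fun _ => True) j)).1 g
  rw [TT_d F hjk (hgd F hjk)] at hg
  have h1 : matA W (F.d * G) (hG.mul (hgd F hjk)) = matA W 0 HgM.zero :=
    (matA_comp W _ _ _ _).symm.trans (hg.trans (matA_eq_zero W 0 HgM.zero
      fun _ _ => dvd_zero _).symm)
  have h2 := ((matSt W _ _).2 _ _ _ _).1 h1
  have h3 : ∀ a b, ∃ u, Hg (q b - (F.p a - 3 * i)) u ∧
      (Even (q b) → (F.d * G) a b = W * u) := by
    intro a b
    by_cases hb : Even (q b)
    · obtain ⟨v, hv⟩ := h2 a b hb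
      rw [Matrix.zero_apply, sub_zero] at hv
      obtain ⟨u, hu, hu'⟩ := exists_hg_of_eq_mul hW ((hG.mul (hgd F hjk)) a b) hv
      refine ⟨u, ?_, fun _ => hu'⟩
      rw [qsel_true] at hu
      convert hu using 1
      rw [← hjk, ← hij]
      ring
    · exact ⟨0, hga_zero _, fun h => absurd h hb⟩
  choose U hU hU' using h3
  have hU1 : HgM q (qsel F (fun _ => True) i) (Matrix.of U) := fun a b => by
    rw [qsel_true]; exact hU a b
  refine ⟨matA W (Matrix.of U) hU1, ?_⟩
  rw [TT_d F hij (hgd F hij)]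
  refine (matA_comp W _ _ _ _).trans (((matSt W _ _).2 _ _ _ _).2 fun a b hb => ?_)
  have h4 : W * (F.d * Matrix.of U) a b = W * G a b := by
    have h5 : W * (F.d * Matrix.of U) a b = (F.d * (F.d * G)) a b := by
      rw [Matrix.mul_apply, Matrix.mul_apply, Finset.mul_sum]
      refine Finset.sum_congr rfl fun t _ => ?_
      rw [hU' t b hb, Matrix.of_apply]
      ring
    rw [h5, ← Matrix.mul_assoc, F.sq, Matrix.smul_mul, Matrix.one_mul, Matrix.smul_apply,
      smul_eq_mul]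
  rw [mul_left_cancel₀ h0 h4, sub_self]
  exact dvd_zero _

/-- **B3** -/
theorem nullSt (hW : Hg 6 W) (h0 : W ≠ 0) : NullSt W := by
  intro n E Y b hY hfr φ
  refine exists_homotopy_zero φ (b - 1) ((Y.isZero_of_isStrictlyGE b (b - 1)).eq_of_tgt _ _)
    (fun i j k hij hjk _ g hg => ?_) (fun i j k _ _ hj g _ => ?_)
  · obtain ⟨r, q, ⟨e⟩⟩ := hfr j
    obtain ⟨g', hg'⟩ := ext_up hW h0 E q i j k hij hjk (g ≫ e.hom) (by
      rw [← Category.assoc, hg, zero_comp])
    exact ⟨g' ≫ e.inv, by rw [← Category.assoc, hg', Category.assoc, e.hom_inv_id,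
      Category.comp_id]⟩
  · exact ⟨0, by rw [zero_comp]; exact (Y.isZero_of_isStrictlyGE b j).eq_of_tgt _ _⟩

/-- **B3** -/
theorem nullSt' (hW : Hg 6 W) (h0 : W ≠ 0) : NullSt' W := by
  intro n F X b hX hpr φ
  refine exists_homotopy_zero φ (b + 1) ((X.isZero_of_isStrictlyLE b (b + 1)).eq_of_src _ _)
    (fun i j k _ _ hj g _ => ?_) (fun i j k hij hjk _ g hg => ?_)
  · exact ⟨0, by rw [comp_zero]; exact (X.isZero_of_isStrictlyLE b j).eq_of_src _ _⟩
  · have := hpr j
    have hex := acySt hW h0 F i j k hij hjk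
    exact ⟨hex.liftFromProjective g hg, hex.liftFromProjective_comp g hg⟩

end comp

end Vale.Agent.P287Z.O.H319
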